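import Vale.Agent.P060.Gap

namespace Vale.Agent.Results.P060.DenseGap

open Vale.Agent.P060

theorem result {V : Type*} [Fintype V] [DecidableEq V] (G : SimpleGraph V) [DecidableRel G.Adj]
    (D : ℕ) (hD : ∀ v, Gᶜ.degree v ≤ D) :
    (∀ k : ℕ, 8000000 * D ^ 4 ≤ k ^ 3 → G.cliqueNum + k ≤ Fintype.card V →
      G.chromaticNumber ≤ (hadwigerNumber G : ℕ∞)) ∧
    (1000000 * D ^ 4 ≤ (Fintype.card V) ^ 3 →
      (Fintype.card V + 1) / 2 ≤ hadwigerNumber G ∧
      ((∀ X : Set V, X ≠ Set.univ →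
        (G.induce X).chromaticNumber ≤ (hadwigerNumber (G.induce X) : ℕ∞)) →
        G.chromaticNumber ≤ (hadwigerNumber G : ℕ∞))) := by
  refine ⟨?_, ?_⟩
  · intro k h1 h2
    rw [chromaticNumber_eq_chi]
    exact_mod_cast le_hadwigerNumber (omega_gap G D k hD h1 h2)
  · intro h
    have h1 : 100 * D ≤ Fintype.card V := by
      rcases Nat.eq_zero_or_pos D with hD0 | hD0
      · subst hD0; simp
      · by_contra hlt
        push Not at hlt
        have e1 : (Fintype.card V) ^ 3 < (100 * D) ^ 3 := Nat.pow_lt_pow_left hlt (by norm_num)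
        have e2 : D ^ 3 ≤ D ^ 4 := Nat.pow_le_pow_right hD0 (by norm_num)
        have e3 : (100 * D) ^ 3 = 1000000 * D ^ 3 := by ring
        omega
    have h2 : 60000 * (D ^ 2) ^ 2 ≤ (Fintype.card V) ^ 3 := by
      have e1 : (D ^ 2) ^ 2 = D ^ 4 := by ring
      rw [e1]
      omega
    exact (main G D (D ^ 2) hD (walk_bound G D hD)).2 h1 h2

end Vale.Agent.Results.P060.DenseGap
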